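import Crest.Agent.X277.Gj.Gap
import Crest.Agent.X277.Gap.VolA
import Crest.Agent.X277.Gap.Mono
import Crest.Agent.X277.Gap.WD
import Crest.Agent.R273.FG_259

/-!
# Row 262, VOL (helper12): the volume of a gap fibre

* `exists_gap3` : a gap prime for the scales `t`, `2 t`, `R t`;
* `count`       : the sections restricted to the gap fibre grow at most like `C (t l) ^ k`;
* `gap_vol`     : both together.
-/

set_option autoImplicit false
set_option linter.style.haveILetI false
set_option linter.unusedSectionVars false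

open scoped TensorProduct

namespace Crest.Agent.X262.Vol12

open Crest.Agent.X277 Crest.Agent.X277.Gj IsLocalRing Filter

noncomputable section

variable {E K : Type*} [Field E] [Field K] [Algebra E K] [CharZero E]
  [Algebra.EssFiniteType E K] {V : ℕ → Set K}

theorem dm_add (M : IntermediateField E K) : dm E M + dm M K = dm E K := by
  haveI := R273.FG_259.essFiniteType_of_le M
  haveI : CharZero M := charZero_of_injective_algebraMap (algebraMap E M).injective
  have hinj : Function.Injective (KaehlerDifferential.mapBaseChange E M K) := by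
    rw [injective_iff_map_eq_zero]
    intro x hx
    obtain ⟨x, rfl⟩ := (Algebra.H1Cotangent.exact_δ_mapBaseChange E M K x).mp hx
    rw [Subsingleton.elim x 0, map_zero]
  have h1 := LinearMap.finrank_range_add_finrank_ker (KaehlerDifferential.map E M K K)
  rw [LinearMap.range_eq_top.2 (KaehlerDifferential.map_surjective E M K), finrank_top,
    ← KaehlerDifferential.range_mapBaseChange, LinearMap.finrank_range_of_inj hinj,
    Module.finrank_baseChange] at h1
  unfold dm
  omega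

omit [CharZero E] in
/-- a gap prime for three scales -/
theorem exists_gap3 {t R : ℕ} (ht : 0 < t) (hR : 2 ≤ R) :
    ∃ s, t ≤ s ∧ s ≤ R ^ dm E K * t ∧ ∃ P : Ideal (K ⊗[E] K), P ≤ I E K ∧ aa E V s ≤ P ∧
      P ∈ (aa E V (2 * s)).minimalPrimes ∧ P ∈ (aa E V (R * s)).minimalPrimes := by
  haveI : IsNoetherianRing (K ⊗[E] K) := noeth
  have hR0 : 0 < R := by omega
  have key : ∀ {s : ℕ} {P : Ideal (K ⊗[E] K)}, aa E V s ≤ P →
      P ∈ (aa E V (R * s)).minimalPrimes → P ∈ (aa E V (2 * s)).minimalPrimes :=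
    fun {s P} h1 h2 => ⟨⟨h2.isPrime, (aa_anti (by omega)).trans h1⟩, fun Q hQ hle =>
      h2.2 ⟨hQ.1, (aa_anti (Nat.mul_le_mul_right s hR)).trans hQ.2⟩ hle⟩
  by_cases h : I E K ∈ (aa E V (R * t)).minimalPrimes
  · exact ⟨t, le_rfl, Nat.le_mul_of_pos_left t (by positivity), I E K, le_rfl, aa_le_I ht,
      key (aa_le_I ht) h, h⟩
  obtain ⟨P0, hP0, hle⟩ := Ideal.exists_minimalPrimes_le
    (aa_le_I (E := E) (V := V) (Nat.mul_pos hR0 ht))
  haveI := hP0.isPrime
  have hlt : P0 < I E K := lt_of_le_of_ne hle fun e => h (e ▸ hP0)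
  obtain ⟨i, hi, P, hP, h1, h2⟩ := exists_gap height_le (fun i => aa E V (R ^ (i + 1) * t))
    (fun i => aa_anti (Nat.mul_le_mul_right t (Nat.pow_le_pow_right hR0 (Nat.le_succ _))))
    (P0 := P0) (by simpa using hP0.le) hlt
  have e : R ^ (i + 1 + 1) * t = R * (R ^ (i + 1) * t) := by ring
  rw [e] at h2
  exact ⟨R ^ (i + 1) * t, Nat.le_mul_of_pos_left t (by positivity),
    Nat.mul_le_mul_right t (Nat.pow_le_pow_right hR0 hi), P, hP.trans hle, h1, key h1 h2, h2⟩

omit [CharZero E] [Algebra.EssFiniteType E K] in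
/-- every element is a section up to a unit -/
theorem exists_sec (hV : Ser V) (a : K ⊗[E] K) :
    ∃ d, ∃ w ∈ V d, w ≠ 0 ∧ ((1 : K) ⊗ₜ[E] w) * a ∈ S E K (V d) := by
  induction a using TensorProduct.induction_on with
  | zero => exact ⟨0, 1, hV.one, one_ne_zero, by simp⟩
  | add x y hx hy =>
    obtain ⟨d, w, hw, h0, h1⟩ := hx
    obtain ⟨d', w', hw', h0', h1'⟩ := hy
    refine ⟨d + d', w * w', hV.mul _ _ _ hw _ hw', mul_ne_zero h0 h0', ?_⟩
    have e : ((1 : K) ⊗ₜ[E] (w * w')) * (x + y) = (((1 : K) ⊗ₜ[E] w) * x) * ((1 : K) ⊗ₜ[E] w') +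
        ((1 : K) ⊗ₜ[E] w) * (((1 : K) ⊗ₜ[E] w') * y) := by
      have : ((1 : K) ⊗ₜ[E] (w * w') : K ⊗[E] K) = ((1 : K) ⊗ₜ[E] w) * ((1 : K) ⊗ₜ[E] w') := by
        simp
      rw [this]; ring
    rw [e]
    exact add_mem (hV.S_mul h1 (one_tmul_mem_S hw')) (hV.S_mul (one_tmul_mem_S hw) h1')
  | tmul c f =>
    obtain ⟨m, w, hw, h0, hf⟩ := hV.bir f
    refine ⟨m, w, hw, h0, ?_⟩
    rw [Algebra.TensorProduct.tmul_mul_tmul, one_mul, mul_comm w, ← smul_one_tmul]
    exact Submodule.smul_mem _ _ (one_tmul_mem_S hf)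

/-- `D ⊗ 1` as a derivation -/
def ldD (D : Derivation E K K) : Derivation ℤ (K ⊗[E] K) (K ⊗[E] K) :=
  Derivation.mk' (ld K D).toAddMonoidHom.toIntLinearMap fun a b => ld_mul D a b

section Loc

variable (M : IntermediateField E K) (O : Type*) [CommRing O] [IsLocalRing O]
  [Algebra (K ⊗[E] K) O] [hP : (PF (AlgHom.id E K) (M : Set K)).IsPrime]
  [IsLocalization.AtPrime O (PF (AlgHom.id E K) (M : Set K))]

variable (E K) in
/-- the coefficient derivations of the local ring -/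
def ders (O : Type*) [CommRing O] [Algebra (K ⊗[E] K) O] : Set (Derivation ℤ O O) :=
  {D' | ∃ D : Derivation E K K, ∀ a, D' (algebraMap (K ⊗[E] K) O a) = algebraMap _ O (ld K D a)}

omit [CharZero E] [Algebra.EssFiniteType E K] in
theorem PF_le (X : Fr E M) : PF (AlgHom.id E K) (M : Set K) ≤
    Ideal.span (Set.range fun j => del (AlgHom.id E K) (X.y j : K)) ⊔
      PF (AlgHom.id E K) (M : Set K) ^ 2 := by
  set P := PF (AlgHom.id E K) (M : Set K) with hPd
  have hm : ∀ f : M, del (AlgHom.id E K) (f : K) ∈ P := fun f => Ideal.subset_span ⟨f, f.2, rfl⟩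
  refine Ideal.span_le.2 ?_
  rintro _ ⟨f, hf, rfl⟩
  let π := Ideal.Quotient.mk (P ^ 2)
  let ρ : M →+* (K ⊗[E] K) ⧸ (P ^ 2) :=
    π.comp ((algebraMap K (K ⊗[E] K)).comp (algebraMap M K))
  let δ : M →+ (K ⊗[E] K) ⧸ (P ^ 2) :=
    AddMonoidHom.mk' (fun g => π (del (AlgHom.id E K) (g : K))) (fun a b => by
      rw [IntermediateField.coe_add, del_add, map_add])
  have h := X.exp' ρ δ (fun f g => by
    have h2 : π (del (AlgHom.id E K) (f : K) * del (AlgHom.id E K) (g : K)) = 0 := by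
      rw [Ideal.Quotient.eq_zero_iff_mem, pow_two]
      exact Ideal.mul_mem_mul (hm f) (hm g)
    show π (del (AlgHom.id E K) ((f : K) * g)) = π ((f : K) ⊗ₜ[E] (1 : K)) *
      π (del (AlgHom.id E K) (g : K)) + π ((g : K) ⊗ₜ[E] (1 : K)) * π (del (AlgHom.id E K) (f : K))
    rw [del_mul, map_add, map_add, h2, add_zero, map_mul, map_mul]
    rfl)
    (fun e => by
      show π (del (AlgHom.id E K) (algebraMap E K e)) = 0
      rw [del_algebraMap, map_zero]) ⟨f, hf⟩
  have h1 : del (AlgHom.id E K) f - ∑ j, ((X.D j ⟨f, hf⟩ : K) ⊗ₜ[E] (1 : K)) *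
      del (AlgHom.id E K) (X.y j : K) ∈ P ^ 2 := by
    rw [← Ideal.Quotient.eq, map_sum]
    exact h.trans (Finset.sum_congr rfl fun j _ => by rw [map_mul]; rfl)
  have h2 : ∑ j, ((X.D j ⟨f, hf⟩ : K) ⊗ₜ[E] (1 : K)) * del (AlgHom.id E K) (X.y j : K) ∈
      Ideal.span (Set.range fun j => del (AlgHom.id E K) (X.y j : K)) :=
    Ideal.sum_mem _ fun j _ => Ideal.mul_mem_left _ _ (Ideal.subset_span ⟨j, rfl⟩)
  have h3 := add_mem (Ideal.mem_sup_left h2) (Ideal.mem_sup_right h1)
  rwa [add_sub_cancel] at h3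

theorem exists_frame :
    Nonempty (Gap.Frame (Submodule.span O (ders E K O)) (dm E M)) := by
  classical
  haveI := R273.FG_259.essFiniteType_of_le M
  haveI : CharZero M := charZero_of_injective_algebraMap (algebraMap E M).injective
  haveI : IsNoetherianRing (K ⊗[E] K) := noeth
  set P := PF (AlgHom.id E K) (M : Set K) with hPd
  haveI : IsNoetherianRing O := IsLocalization.isNoetherianRing P.primeCompl O inferInstance
  obtain ⟨X⟩ := exists_Fr (E := E) (K := M)
  choose D hD using fun j => exists_der_ext (Ω := K) (X.D j)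
  choose D' hD' using fun j => Gap.exists_der_loc O P.primeCompl
    ((Algebra.linearMap (K ⊗[E] K) O).compDer (ldD (D j)))
  have hm : ∀ j, del (AlgHom.id E K) (X.y j : K) ∈ P :=
    fun j => Ideal.subset_span ⟨X.y j, (X.y j).2, rfl⟩
  have hmap := IsLocalization.AtPrime.map_eq_maximalIdeal P O
  refine ⟨⟨fun j => algebraMap _ O (del (AlgHom.id E K) (X.y j : K)), fun j => -D' j, ?_,
    fun j => neg_mem (Submodule.subset_span ⟨D j, hD' j⟩), fun i l => ?_⟩⟩
  · refine le_antisymm (Ideal.span_le.2 ?_) ?_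
    · rintro _ ⟨j, rfl⟩
      exact hmap ▸ Ideal.mem_map_of_mem _ (hm j)
    · refine Submodule.le_of_le_smul_of_le_jacobson_bot (IsNoetherian.noetherian _)
        (maximalIdeal_le_jacobson ⊥) ?_
      have h1 := Ideal.map_mono (f := algebraMap (K ⊗[E] K) O) (PF_le M X)
      rw [Ideal.map_sup, Ideal.map_pow, Ideal.map_span, ← Set.range_comp, hmap, pow_two] at h1
      exact h1
  · have h1 : D i (X.y l : K) = if i = l then 1 else 0 := by
      have := hD i (X.y l)
      rw [X.dual] at this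
      refine this.trans ?_
      split_ifs <;> simp
    have h2 : D' i (algebraMap _ O (del (AlgHom.id E K) (X.y l : K))) =
        -(if i = l then 1 else 0) := by
      rw [hD']
      change algebraMap _ O (ld K (D i) (del (AlgHom.id E K) (X.y l : K))) = _
      simp only [del, map_sub, ld_tmul, AlgHom.id_apply, h1, Derivation.map_one_eq_zero,
        TensorProduct.zero_tmul, zero_sub]
      split_ifs
      · rw [← Algebra.TensorProduct.one_def, map_neg, map_one]
      · simp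
    rw [Derivation.neg_apply, h2, neg_neg, sub_self]
    exact zero_mem _

/-- the differentiation lemma -/
theorem ekl {t m : ℕ} (h1 : aa E V t ≤ PF (AlgHom.id E K) (M : Set K)) (hm : 0 < m)
    {s : K ⊗[E] K} (hs : s ∈ gs E V (2 * t) m) :
    algebraMap _ O s ∈ maximalIdeal O ^ (t * m) := by
  obtain ⟨Fr⟩ := exists_frame M O
  let _ : Algebra ℚ O := ((algebraMap (K ⊗[E] K) O).comp ((algebraMap E (K ⊗[E] K)).comp
    (algebraMap ℚ E))).toAlgebra
  refine Ideal.pow_le_pow_right (Nat.le_succ _) (Gap.ekl_abs Fr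
    (fun a => algebraMap _ O '' {x | x ∈ S E K (V m) ∧ x ∈ I E K ^ a}) ?_ ?_ (b := t * m) ?_
    (t * m) _ ⟨s, ⟨hs.1, ?_⟩, rfl⟩)
  · exact fun a => Set.image_mono fun x hx => ⟨hx.1, Ideal.pow_le_pow_right (Nat.le_succ a) hx.2⟩
  · rintro D' ⟨D, hD⟩ a _ ⟨x, hx, rfl⟩
    exact ⟨ld K D x, ⟨ld_mem_S D hx.1, ld_pow D _ a hx.2⟩, (hD x).symm⟩
  · rintro _ ⟨x, hx, rfl⟩
    exact (IsLocalization.AtPrime.to_map_mem_maximal_iff O _ x).2
      (aa_le_iff.1 h1 m hm x hx.1 hx.2)
  · rw [← two_mul, ← mul_assoc]; exact hs.2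

omit hP [CharZero E] in
theorem fin_img {Q : Type*} [AddCommGroup Q] [Module K Q] (π : (K ⊗[E] K) →ₗ[K] Q)
    (W : Submodule K (K ⊗[E] K)) (s : ℕ) (h : ∀ a ∈ W, a ∈ I E K ^ (s + 1) → π a = 0) :
    FiniteDimensional K (W.map π) ∧ Module.finrank K (W.map π) ≤ (s + dm E K) ^ dm E K := by
  have hrk : Module.rank K (W.map π) ≤ ((s + dm E K).choose (dm E K) : ℕ) := by
    refine _root_.rank_le fun B hB => ?_
    choose v hv hv' using fun i : B => (i : W.map π).2
    have hB' : LinearIndependent K (π ∘ v) := by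
      rw [show π ∘ v = _ from funext hv']
      exact hB.map' (W.map π).subtype (Submodule.ker_subtype _)
    have := card_le (AlgHom.id E K) s v hB'.of_comp fun a ha ha' => by
      have h4 := h a ((Submodule.span_le.2 (by rintro _ ⟨i, rfl⟩; exact hv i)) ha) ha'
      obtain ⟨c, rfl⟩ := (Submodule.mem_span_range_iff_exists_fun K).1 ha
      rw [map_sum] at h4
      have h5 := Fintype.linearIndependent_iff.1 hB' c (by simpa using h4)
      simp [h5]
    simpa using this
  exact ⟨Module.rank_lt_aleph0_iff.1 (hrk.trans_lt (Cardinal.natCast_lt_aleph0)),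
    (Module.finrank_le_of_rank_le hrk).trans (Nat.choose_le_pow _ _)⟩

variable [Algebra K O] [IsScalarTower K (K ⊗[E] K) O]

omit [CharZero E] [Algebra.EssFiniteType E K] in
theorem li_res {N : ℕ} {x : Fin N → K} (hli : LinearIndependent M x) :
    LinearIndependent K fun j => residue O (algebraMap (K ⊗[E] K) O ((1 : K) ⊗ₜ[E] x j)) :=
  Fintype.linearIndependent_iff.2 fun c hc => by
    have h3 : ∑ j, c j • ((1 : K) ⊗ₜ[E] x j) ∈ PF (AlgHom.id E K) (M : Set K) := by
      rw [← IsLocalization.AtPrime.to_map_mem_maximal_iff O (PF (AlgHom.id E K) (M : Set K)),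
        ← residue_eq_zero_iff, ← hc, map_sum, map_sum]
      refine Finset.sum_congr rfl fun j _ => ?_
      rw [Algebra.smul_def, Algebra.smul_def, map_mul, map_mul, ← IsScalarTower.algebraMap_apply]
      rfl
    rw [← ker_toF, RingHom.mem_ker, map_sum] at h3
    refine Fintype.linearIndependent_iff.1 (li_one_tmul (Ω := K) hli) c ?_
    simpa using h3

include O in
/-- the counting inequality -/
theorem count0 (hV : Ser V) {t : ℕ} (h1 : aa E V t ≤ PF (AlgHom.id E K) (M : Set K))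
    (h2 : PF (AlgHom.id E K) (M : Set K) ∈ (aa E V (2 * t)).minimalPrimes) :
    ∃ k0 : ℕ, ∀ l g : ℕ, 0 < t * l → dm E M * g ≤ t * l → ∀ {N : ℕ} (x : Fin N → K),
      (∀ j, x j ∈ V l) → LinearIndependent M x →
      g ^ dm E M * N ≤ (2 * t * (2 * l + k0) + dm E K) ^ dm E K := by
  classical
  haveI : IsNoetherianRing (K ⊗[E] K) := noeth
  haveI : IsNoetherianRing O := IsLocalization.isNoetherianRing
    (PF (AlgHom.id E K) (M : Set K)).primeCompl O inferInstance
  let φ := algebraMap (K ⊗[E] K) O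
  have hmap := IsLocalization.AtPrime.map_eq_maximalIdeal (PF (AlgHom.id E K) (M : Set K)) O
  have hunit : ∀ {w : K}, w ≠ 0 → IsUnit (φ ((1 : K) ⊗ₜ[E] w)) :=
    fun hw => (isUnit_one_tmul hw).map φ
  obtain ⟨k, hk, hmin⟩ := exists_deg (E := E) hV (2 * t)
  rw [hmin] at h2
  obtain ⟨u, hu, N0, hN0⟩ := exists_mul_pow_le h2
  obtain ⟨σ, hσ, hσs⟩ := (Submodule.fg_span_iff_fg_span_finset_subset _).1
    (IsNoetherian.noetherian (Ideal.span (gs E V (2 * t) k)))
  obtain ⟨τ, hτ, hτ0⟩ := hV.tau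
  obtain ⟨k0, H⟩ := Gap.Vol.vol (K := K) (R := O) (fun m => φ '' S E K (V m))
    (by
      rintro a b _ ⟨x, hx, rfl⟩ _ ⟨y, hy, rfl⟩
      exact ⟨x * y, hV.S_mul hx hy, map_mul _ _ _⟩)
    (hunit hτ0) ⟨_, one_tmul_mem_S hτ, rfl⟩
    (fun r => by
      obtain ⟨⟨a, s⟩, h⟩ := IsLocalization.surj (PF (AlgHom.id E K) (M : Set K)).primeCompl r
      obtain ⟨d, w, -, h0, hw⟩ := exists_sec hV a
      refine ⟨d, φ ((1 : K) ⊗ₜ[E] w) * φ s, (hunit h0).mul (IsLocalization.map_units O s), _, hw,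
        ?_⟩
      rw [map_mul, mul_assoc, mul_comm _ r]
      exact congrArg _ h.symm)
    (k := k) (g := t * k) (N := N0) (σ.image φ)
    (by
      intro s hs
      obtain ⟨x, hx, rfl⟩ := Finset.mem_image.1 hs
      exact ⟨x, (hσ hx).1, rfl⟩)
    (by
      rw [← hmap, ← Ideal.map_pow, Finset.coe_image, ← Ideal.map_span, Ideal.map_le_iff_le_comap]
      intro x hx
      have h3 : φ (u * x) ∈ (Ideal.span (σ : Set (K ⊗[E] K))).map φ :=
        Ideal.mem_map_of_mem _ (hσs.le (hN0 x hx))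
      rw [map_mul] at h3
      exact (Ideal.unit_mul_mem_iff_mem _ (IsLocalization.map_units O
        (⟨u, hu⟩ : (PF (AlgHom.id E K) (M : Set K)).primeCompl))).1 h3)
    (Ideal.span_le.2 fun s hs => by
      obtain ⟨x, hx, rfl⟩ := Finset.mem_image.1 hs
      exact ekl M O h1 hk (hσ hx))
  refine ⟨k + k0, fun l g hb hg N x hx hli => ?_⟩
  obtain ⟨m, hm⟩ : ∃ m, m = 2 * l + (k + k0) := ⟨_, rfl⟩
  rw [← hm]
  let π : (K ⊗[E] K) →ₗ[K] O ⧸ maximalIdeal O ^ (t * l) :=
    ((Ideal.Quotient.mkₐ K (maximalIdeal O ^ (t * l))).comp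
      (IsScalarTower.toAlgHom K (K ⊗[E] K) O)).toLinearMap
  obtain ⟨hfin, hrk⟩ := fin_img π (S E K (V m)) (2 * t * m) fun a h3 ha' =>
    Ideal.Quotient.eq_zero_iff_mem.2 (Ideal.pow_le_pow_right (Nat.mul_le_mul_left t (by omega))
      (ekl M O h1 (m := m) (by omega) ⟨h3, Ideal.pow_le_pow_right (Nat.le_succ _) ha'⟩))
  have h6 := H (l / k + 1) (t * l) l m
    (by
      rw [mul_assoc]
      exact Nat.mul_le_mul_left t (Nat.lt_mul_div_succ l hk).le)
    (by
      have := Nat.div_mul_le_self l k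
      rw [add_mul]
      omega)
    (fun j => φ ((1 : K) ⊗ₜ[E] x j)) (fun j => ⟨_, one_tmul_mem_S (hx j), rfl⟩)
    (li_res M O hli) ((S E K (V m)).map π) (by rintro _ ⟨y, hy, rfl⟩; exact ⟨y, hy, rfl⟩)
  obtain ⟨Fr⟩ := exists_frame M O
  let _ : Algebra ℚ O := (φ.comp ((algebraMap E (K ⊗[E] K)).comp (algebraMap ℚ E))).toAlgebra
  have h7 := Fr.toPF.pow_le_coheight hb hg
  rw [← Module.length_quotient] at h7
  have h8 : ((g ^ dm E M * N : ℕ) : ℕ∞) ≤ Module.finrank K ((S E K (V m)).map π) := by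
    refine le_trans ?_ h6
    rw [Nat.cast_mul, Fintype.card_fin]
    gcongr
  exact (Nat.cast_le.1 h8).trans hrk

end Loc

/-- **VOL**: growth of the sections on the gap fibre -/
theorem count (hV : Ser V) (M : IntermediateField E K) {t : ℕ} (ht : 0 < t)
    (h1 : aa E V t ≤ PF (AlgHom.id E K) (M : Set K))
    (h2 : PF (AlgHom.id E K) (M : Set K) ∈ (aa E V (2 * t)).minimalPrimes) :
    ∀ᶠ l : ℕ in atTop, Module.finrank M (Submodule.span M (V l)) ≤
      (10 * dm E K + 5) ^ dm E K * (t * l) ^ dm M K := by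
  haveI := h2.isPrime
  obtain ⟨k0, H⟩ := count0 M (Localization.AtPrime (PF (AlgHom.id E K) (M : Set K))) hV h1 h2
  filter_upwards [eventually_ge_atTop (2 * k0 + dm E K + 1)] with l hl
  have hn := dm_add M
  set c := dm E M
  set k := dm M K
  set n := dm E K
  have htl : l ≤ t * l := Nat.le_mul_of_pos_left l ht
  obtain ⟨B, hB, hsp, hli⟩ := exists_linearIndependent M (V l)
  have key : ∀ s : Finset K, (s : Set K) ⊆ B → s.card ≤ (10 * n + 5) ^ n * (t * l) ^ k := by
    intro s hs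
    have h3 := H l (t * l / c) (by omega) (Nat.mul_div_le _ _) (fun j => (s.equivFin.symm j : K))
      (fun j => hB (hs (s.equivFin.symm j).2))
      (hli.comp (fun j => ⟨_, hs (s.equivFin.symm j).2⟩) fun i j h =>
        s.equivFin.symm.injective (Subtype.ext (Subtype.mk.inj h)))
    have h4 : 2 * t * (2 * l + k0) + n ≤ 5 * (t * l) := by nlinarith
    have h5 : (t * l) ^ c ≤ (2 * n + 1) ^ n * (t * l / c) ^ c := by
      rcases Nat.eq_zero_or_pos c with hc | hc
      · rw [hc, pow_zero, pow_zero, mul_one]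
        exact Nat.one_le_pow _ _ (by omega)
      · have h6 := Nat.lt_mul_div_succ (t * l) hc
        have h7 : 1 ≤ t * l / c := (Nat.le_div_iff_mul_le hc).2 (by omega)
        calc (t * l) ^ c ≤ ((2 * n + 1) * (t * l / c)) ^ c :=
              Nat.pow_le_pow_left (by nlinarith) _
          _ = (2 * n + 1) ^ c * (t * l / c) ^ c := mul_pow _ _ _
          _ ≤ _ := Nat.mul_le_mul_right _ (Nat.pow_le_pow_right (by omega) (by omega))
    refine Nat.le_of_mul_le_mul_left ?_ (show 0 < (t * l) ^ c from pow_pos (by omega) _)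
    calc (t * l) ^ c * s.card ≤ (2 * n + 1) ^ n * ((t * l / c) ^ c * s.card) := by
          rw [← mul_assoc]; exact Nat.mul_le_mul_right _ h5
      _ ≤ (2 * n + 1) ^ n * (5 * (t * l)) ^ n :=
          Nat.mul_le_mul_left _ (h3.trans (Nat.pow_le_pow_left h4 _))
      _ = (10 * n + 5) ^ n * (t * l) ^ n := by
          rw [← mul_pow, ← mul_pow]; congr 1; ring
      _ = _ := by rw [← hn, pow_add]; ring
  have hfin : B.Finite := by
    by_contra h
    obtain ⟨s, hs, hc⟩ := Set.Infinite.exists_subset_card_eq h ((10 * n + 5) ^ n * (t * l) ^ k + 1)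
    have := key s hs
    omega
  rw [← hsp]
  lift B to Finset K using hfin
  exact (finrank_span_finset_le_card B).trans (key B subset_rfl)

/-- **gap fibre with bounded growth**, isolated at the scale `R s` -/
theorem gap_vol (hV : Ser V) {t R : ℕ} (ht : 0 < t) (hR : 2 ≤ R) :
    ∃ s, t ≤ s ∧ s ≤ R ^ dm E K * t ∧ ∃ M : IntermediateField E K, Reg M K ∧
      (∃ k, 0 < k ∧ PF (AlgHom.id E K) (M : Set K) ∈
        (Ideal.span (gs E V (R * s) k)).minimalPrimes) ∧
      ∀ᶠ l : ℕ in atTop, Module.finrank M (Submodule.span M (V l)) ≤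
        (10 * dm E K + 5) ^ dm E K * (s * l) ^ dm M K := by
  obtain ⟨s, h1, h2, P, hI, h3, h4, h5⟩ := exists_gap3 (E := E) (V := V) ht hR
  obtain ⟨h6, -⟩ := gap_prime hV h3 h4 hI
  obtain ⟨k, hk, hmin⟩ := exists_deg (E := E) hV (R * s)
  exact ⟨s, h1, h2, FP P, (reg_iff _).2 (h6 ▸ h4.isPrime), ⟨k, hk, hmin ▸ h6 ▸ h5⟩,
    count hV _ (ht.trans_le h1) (h6 ▸ h3) (h6 ▸ h4)⟩

end

end Crest.Agent.X262.Vol12
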