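import Crest.Agent.X262.Vol12.Cnt
import Crest.Agent.X262.Loc95.Prj
import Crest.Agent.X277.BD.Vol2
import Crest.Agent.X277.BD.BrA
import Crest.Agent.X277.Slope.Reg

/-!
# Row 262, VOL (helper12): a fibration whose fibres have dimension `≥ 2` and bounded volume

* `bnum_le`  : growth of the restricted sections bounds the volume of the generic fibre;
* `gap_bd`   : the gap fibre of a free and big class;
* `NoSmall`  : gap fibres of dimension `≤ 1` are impossible (proved in `X262/Vol78`);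
* `vol_of`   : the volume bound.
-/

set_option autoImplicit false
set_option linter.unusedSectionVars false

open scoped TensorProduct KaehlerDifferential

noncomputable section

namespace Crest.Agent.X262.Vol12

open Crest.Agent.X277 Crest.Agent.X277.BD Crest.Agent.X277.GF Crest.Agent.X277.Lef
open Crest.Agent.X277.Gj (Ser Reg dm gs PF S I)
open Crest.Agent.X277.BD.Br (On kP)
open Crest.Agent.X262.Loc Filter
open List (replicate)

universe u

section Gen

variable {k F : Type u} [Field k] [Field F] [Algebra k F] [CharZero k]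
  [Algebra.EssFiniteType k F] {L A : BD k F}

theorem ser_sec (hL : Free L) (hb : Big L) : Ser fun m => ((m • L).Sec : Set F) where
  one := by simpa using one_mem_Sec
  mul a b x hx y hy := by rw [add_nsmul]; exact mul_mem_Sec hx hy
  tau := by simpa using hL.exists_ne
  bir f := by
    classical
    obtain ⟨m, -, s, hs, h0⟩ := hb (mx k {1, f})
    have h1 := mul_mem_Sec hs (mem_Sec_mx (k := k) (s := {1, f}) (g := 1) (by simp))
    have h2 := mul_mem_Sec hs (mem_Sec_mx (k := k) (s := {1, f}) (g := f) (by simp))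
    rw [sub_add_cancel] at h1 h2
    exact ⟨m, s, by simpa using h1, h0, by rwa [mul_comm]⟩

/-- growth of the restricted sections bounds the volume of the generic fibre -/
theorem bnum_le (hL : Free L) (hb : Big L) (M : IntermediateField k F) {D : ℕ}
    (h : ∀ᶠ l : ℕ in atTop, Module.finrank M (Submodule.span M ((l • L).Sec : Set F)) ≤
      D * l ^ dim M F) :
    bnum (replicate (dim M F) (up M L)) ≤ ((dim M F).factorial * D : ℕ) := by
  have : CharZero M := charZero_of_injective_algebraMap (algebraMap k M).injective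
  obtain ⟨N, h1, -, h2, -⟩ := exists_sn2 (nf_of_free hL) (nf_of_free hL)
  have h3 := (Cv.tow k M F).tendsto_nb h2 (Mdl.big_iff.2 hb) 0
  have h4 := bnum_cv (Cv.tow k M F) N (l := replicate (dim M F) ⟨L, h1⟩) (by simp)
  rw [List.map_replicate] at h4
  rw [← dim_cv (Cv.tow k M F) N, ← h4] at h3
  have h5 : (bnum (replicate (dim M F) (up M L)) : ℝ) ≤ ((dim M F).factorial * D : ℕ) := by
    refine le_of_tendsto h3 ?_
    filter_upwards [h, eventually_gt_atTop 0] with l hl hl0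
    unfold Cv.nw
    rw [← dim_cv (Cv.tow k M F) N, Cv.W_mdl, div_le_iff₀ (by positivity), zero_add]
    have e : (Cv.tow k M F).sp ((l • (⟨L, h1⟩ : N.On)).1.Sec : Set F) =
        Submodule.span M ((l • L).Sec : Set F) := congrArg _ (Set.image_id _)
    rw [e]
    have h6 : (Module.finrank M (Submodule.span M ((l • L).Sec : Set F)) : ℝ) ≤
        D * (l : ℝ) ^ dim M F := by exact_mod_cast hl
    push_cast
    rw [mul_assoc]
    gcongr
  exact_mod_cast h5

/-- the gap fibre of a free and big class -/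
theorem gap_bd (hL : Free L) (hb : Big L) {t R : ℕ} (ht : 0 < t) (hR : 2 ≤ R) :
    ∃ s, t ≤ s ∧ s ≤ R ^ dim k F * t ∧ ∃ M : IntermediateField k F, Reg M F ∧
      (∃ j, 0 < j ∧ PF (AlgHom.id k F) (M : Set F) ∈
        (Ideal.span (gs k (fun m => ((m • L).Sec : Set F)) (R * s) j)).minimalPrimes) ∧
      bnum (replicate (dim M F) (up M L)) ≤
        ((dim k F).factorial * (10 * dim k F + 5) ^ dim k F * s ^ dim M F : ℕ) := by
  obtain ⟨s, h1, h2, M, h3, h4, h5⟩ := gap_vol (E := k) (ser_sec hL hb) ht hR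
  refine ⟨s, h1, h2, M, h3, h4, (bnum_le hL hb M (D := (10 * dim k F + 5) ^ dim k F *
    s ^ dim M F) (h5.mono fun l hl => by rw [mul_assoc, ← mul_pow]; exact hl)).trans ?_⟩
  rw [Nat.cast_le, mul_assoc]
  exact Nat.mul_le_mul_right _ (Nat.factorial_le (Gj.dm_le M))

/-- a fibration on which `L + a A` has volume `< a` contains the field of `A` -/
theorem cf_le_of_lt (hL : Free L) (hb : Big L) (hA : Free A) {M : IntermediateField k F}
    (hM : Reg M F) {a : ℕ} (h : bnum (replicate (dim M F) (up M (L + a • A))) < a) : cf A ≤ M := by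
  have : CharZero M := charZero_of_injective_algebraMap (algebraMap k M).injective
  have hac : ∀ x, IsAlgebraic M x → x ∈ M := fun x hx => by
    obtain ⟨y, rfl⟩ := Slope.ac_of_reg hM x hx
    exact y.2
  have h1 := pow_nu_le (hA.up M).nef (hL.up M).nef (hb.up M) a
  rw [map_add, map_nsmul, add_comm] at h
  have h2 : (up M A).nu = 0 := by
    by_contra h0
    have h3 : (a : ℤ) ≤ (a : ℤ) ^ (up M A).nu := by exact_mod_cast Nat.le_self_pow h0 a
    omega
  rw [nu_eq_cf (hA.up M)] at h2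
  have := R273.FG_259.essFiniteType_of_le (cf (up M A))
  have h3 : Module.Finite M (cf (up M A)) := dim_eq_zero_iff.1 h2
  refine cf_le hac (IntermediateField.adjoin_le_iff.2 ?_)
  rintro _ ⟨f, hf, g, hg, rfl⟩
  have h4 := (Algebra.IsAlgebraic.of_finite M (cf (up M A))).isAlgebraic
    ⟨f / g, div_mem_cf (up_mem_Sec hf) (up_mem_Sec hg)⟩
  exact hac _ (h4.algHom (cf (up M A)).val)

theorem lin_up (hA : Free A) {M : IntermediateField k F} (hM : cf A ≤ M) {τ : F} (hτ : τ ∈ A.Sec)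
    (h0 : τ ≠ 0) : up M A = pr M τ := by
  obtain ⟨r, u, h3, h4, h5⟩ := hA.exists_fam
  refine le_antisymm ?_ ((pr_le_iff h0).2 (up_mem_Sec hτ))
  rw [eq_mxf h4 h5, up, mp_mxf]
  intro V
  obtain ⟨i, hi⟩ := exists_val_mxf (k := M) (s := fun i => RingHom.id F (u i)) ⟨0, h3 0⟩ V
  rw [← hi, val_pr h0, RZ.le_iff h0]
  exact V.2 ⟨_, hM (div_mem_cf (h4 i) hτ)⟩

end Gen

/-- gap fibres of dimension at most one are impossible -/
def NoSmall : Prop := ∀ {F : Type} [Field F] [Algebra ℂ F] [Algebra.EssFiniteType ℂ F] {n : ℕ}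
  (b : Module.Basis (Fin n) F Ω[F⁄ℂ]) (KT M : IntermediateField ℂ F), KT ≤ M → Reg M F →
    dm M F ≤ 1 → dm M F < dm KT F → ∀ (P₀ : PModel ℂ F) {L : BD ℂ F}, L ∈ On P₀ → L.Free →
    Big L → ∀ {r : ℕ}, 0 < r → ∀ {σ : F}, σ ≠ 0 → σ ∈ (r • kP P₀ b + L).Sec →
    (∀ f ∈ (r • kP P₀ b + L).Sec, f / σ ∈ KT) → ∀ {k T d : ℕ} (G : Set (F ⊗[ℂ] F)),
    (∀ s ∈ G, s ∈ S ℂ F ((k • L).Sec : Set F) ∧ s ∈ I ℂ F ^ T) →
    PF (AlgHom.id ℂ F) (M : Set F) ∈ (Ideal.span G).minimalPrimes →
    (dm M F = 1 → bnum [up M L] ≤ d) → 2 * n * k * r < T → 2 * n * k * d < T → False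

/-- **the volume bound** -/
theorem vol_of (H : NoSmall) (n : ℕ) : ∃ C : ℕ, ∀ (F : Type) [Field F] [Algebra ℂ F]
    [Algebra.EssFiniteType ℂ F] (b : Module.Basis (Fin n) F Ω[F⁄ℂ]) (P₀ : PModel ℂ F)
    (L A : BD ℂ F), L ∈ On P₀ → A ∈ On P₀ → L.Free → A.Free → Big L → ∀ r : ℕ, 0 < r →
    ∀ σ : F, σ ≠ 0 → σ ∈ (r • kP P₀ b + L).Sec →
    (∀ f ∈ (up (cf A) (r • kP P₀ b + L)).Sec, f / σ ∈ cf A) → 2 ≤ dim (cf A) F →
    ∃ M : IntermediateField ℂ F, cf A ≤ M ∧ Reg M F ∧ 2 ≤ dim M F ∧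
      bnum (replicate (dim M F) (up M L)) ≤ ((C * r : ℕ) : ℤ) ^ dim M F := by
  obtain ⟨D, hD⟩ : ∃ D, D = n.factorial * (10 * n + 5) ^ n := ⟨_, rfl⟩
  have hD0 : 0 < D := by rw [hD]; positivity
  obtain ⟨R, hR⟩ : ∃ R, R = 2 * n * D + 2 := ⟨_, rfl⟩
  refine ⟨D * (R ^ n * (n + 1)), fun F _ _ _ b P₀ L A hL0 hA0 hL hA hb r hr σ h0 hσ hrig hd => ?_⟩
  have hn : dim ℂ F = n := by rw [dim, Module.finrank_eq_card_basis b, Fintype.card_fin]
  obtain ⟨a, ha⟩ : ∃ a, a = D * (R ^ n * ((n + 1) * r)) ^ n + 1 := ⟨_, rfl⟩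
  obtain ⟨τ, hτ, hτ0⟩ := hA.exists_ne
  have hL' : Free (L + a • A) := hL.add (hA.nsmul a)
  have hb' : Big (L + a • A) := hb.add_eff (hA.nsmul a).eff
  obtain ⟨s, h1, h2, M, h3, ⟨j, hj, h4⟩, h5⟩ :=
    gap_bd hL' hb' (t := (n + 1) * r) (R := R) (by positivity) (by omega)
  rw [hn] at h2 h5
  rw [← hD] at h5
  have hs : 0 < s := lt_of_lt_of_le (by positivity) h1
  have hk : dim M F ≤ n := hn ▸ Gj.dm_le M
  have hle : cf A ≤ M := cf_le_of_lt hL hb hA h3 (h5.trans_lt (by
    rw [Nat.cast_lt, ha]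
    exact Nat.lt_succ_of_le (Nat.mul_le_mul_left _
      ((Nat.pow_le_pow_right hs hk).trans (Nat.pow_le_pow_left h2 n)))))
  have h6 : 2 ≤ dim M F := by
    by_contra hlt
    refine H b (cf A) M hle h3 (Nat.lt_succ_iff.1 (not_le.1 hlt)) ((not_le.1 hlt).trans_le hd) P₀
      (add_mem hL0 (nsmul_mem hA0 a)) hL' hb' hr (σ := σ * τ ^ a)
      (mul_ne_zero h0 (pow_ne_zero _ hτ0)) ?_ (fun f hf => ?_) (k := j) (T := R * s * j)
      (d := D * s) _ (fun x hx => hx) h4 (fun h => ?_) ?_ ?_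
    · rw [← add_assoc]
      exact mul_mem_Sec hσ (pow_mem_Sec hτ a)
    · have h7 := up_mem_Sec (K := cf A) hf
      rw [← add_assoc, map_add, map_nsmul, lin_up hA le_rfl hτ hτ0, ← pr_pow hτ0,
        mem_Sec_add_pr (pow_ne_zero _ hτ0)] at h7
      rw [mul_comm, ← div_div]
      exact hrig _ h7
    · have h7 : dim M F = 1 := h
      rwa [h7, List.replicate_one, pow_one] at h5
    · have h7 : 2 * s ≤ R * s := Nat.mul_le_mul_right s (by omega)
      have h8 : 2 * n * r < R * s := by nlinarith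
      nlinarith
    · have h7 : 2 * n * (D * s) < R * s := by nlinarith
      nlinarith
  refine ⟨M, hle, h3, h6, ?_⟩
  have h7 : Lin (up M (L + a • A)) (up M L) :=
    ⟨τ ^ a, pow_ne_zero _ hτ0, by rw [map_add, map_nsmul, lin_up hA hle hτ hτ0, pr_pow hτ0]⟩
  have : CharZero M := charZero_of_injective_algebraMap (algebraMap ℂ M).injective
  have h8 := bnum_rep_lin h7 (dim M F) []
  rw [List.nil_append, List.nil_append] at h8
  rw [← h8]
  refine h5.trans ?_
  rw [← Nat.cast_pow, Nat.cast_le, mul_assoc, mul_pow, mul_assoc]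
  exact Nat.mul_le_mul (Nat.le_self_pow (by omega) D) (Nat.pow_le_pow_left h2 _)

end Crest.Agent.X262.Vol12
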